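import Vale.Agent.P365.T2.H775.Err

/-!
# P365 T2: local law error, consumer form (helper775)

`th1_diff` = the literal statement of the signature file: total kernel `|Φ_b - Φ_y|²`, factor
`J + 2` for the number of scales.
-/

set_option linter.all false

namespace P365T2.H775

open Finset Complex P365L P365T1
open scoped ComplexConjugate
open P365T2.H37 (wk rho Hc)
open P365T2.H844
open Vale.Agent.P365.T2.H417
open Vale.Agent.P365.T2.H789

variable {E : Type*} [NormedAddCommGroup E] [InnerProductSpace ℝ E]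
variable {ι : Type*} [Fintype ι] [DecidableEq ι]

/-- `Σ_b e_b |c_b|² |Φ_b - Φ_y|²`, `c_b = G_by/G_yy`; independent of `V_y` -/
noncomputable def Nh (Φ : ι → E) (A : Matrix ι ι ℝ) (W : ι → ℂ) (y : ι) : ℝ :=
  ∑ b, -(W b).im * ‖gw A W y b‖ ^ 2 * tt Φ b y

/-- `Σ_x e_x |c_x|² V_x` (`V_x = Vr` at the actual configuration) -/
noncomputable def BB (Φ : ι → E) (A : Matrix ι ι ℝ) (W : ι → ℂ) (y : ι) : ℝ :=
  ∑ x, -(W x).im * ‖gw A W y x‖ ^ 2 * Vr Φ (TT A W) x

/-- content of `y` -/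
noncomputable def CC (Φ : ι → E) (A : Matrix ι ι ℝ) (W : ι → ℂ) (y : ι) : ℝ :=
  ∑ x, TT A W x y * (∑ b, TT A W y b / pr (TT A W) y * tt Φ x b + Vr Φ (TT A W) x)

variable {Φ : ι → E} {A : Matrix ι ι ℝ} {W : ι → ℂ}

theorem Hc_le_tt {J k : ℕ} {t : ℝ} (ht : 0 ≤ t) : Hc J k t ≤ t := by
  unfold P365T2.H37.Hc
  split_ifs
  · exact ht
  · exact P365T2.H37.hk_le_right (by positivity) ht
  · exact le_rfl

theorem Nk_le_Nh (hW : ∀ x, (W x).im < 0) (J k : ℕ) (y : ι) : Nk Φ A W J k y ≤ Nh Φ A W y :=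
  sum_le_sum fun b _ => mul_le_mul_of_nonneg_left (Hc_le_tt (tt_nonneg b y))
    (mul_nonneg (by linarith [hW b]) (sq_nonneg _))

theorem Nh_nonneg (hW : ∀ x, (W x).im < 0) (y : ι) : 0 ≤ Nh Φ A W y :=
  sum_nonneg fun b _ => mul_nonneg (mul_nonneg (by linarith [hW b]) (sq_nonneg _)) (tt_nonneg b y)

theorem BB_nonneg (hA : A.IsSymm) (hW : ∀ x, (W x).im < 0) (y : ι) : 0 ≤ BB Φ A W y :=
  sum_nonneg fun x _ => mul_nonneg (mul_nonneg (by linarith [hW x]) (sq_nonneg _))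
    (Vr_nonneg (TT_nonneg hW) (pr_TT_pos hA hW) x)

theorem Nh_rez (hA : A.IsSymm) (hW : ∀ x, (W x).im < 0) (y : ι) (v : ℝ) :
    Nh Φ A (rez W y v) y = Nh Φ A W y := by
  unfold Nh
  exact sum_congr rfl fun b _ => by rw [rez_im, gw_rez hA hW]

theorem sum_Bk (J : ℕ) (y : ι) : ∑ k ∈ range (J + 2), Bk Φ A W J k y = BB Φ A W y := by
  unfold Bk BB
  rw [sum_comm]
  refine sum_congr rfl fun x _ => ?_
  rw [← mul_sum]
  congr 1
  rw [← sum_Pw_self (J := J)]
  exact sum_congr rfl fun k _ => by rw [rho_ur]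

/-- in terms of the landed `Nf` for a finite family -/
theorem Nh_eq_Nf {κ : Type*} [Fintype κ] (F : κ → ι → ℝ)
    (hΦ : ∀ x y, tt Φ x y = ∑ a, (F a x - F a y) ^ 2) (y : ι) :
    Nh Φ A W y = ∑ a, Nf A W (F a) y := by
  unfold Nh Nf
  rw [sum_comm]
  refine sum_congr rfl fun b _ => ?_
  rw [hΦ, mul_sum]

/-- `e_y |G_yy|² BB = Σ_x T_xy V_x` -/
theorem BB_eq (hA : A.IsSymm) (hW : ∀ x, (W x).im < 0) (y : ι) :
    (-(W y).im) * (‖Gr A W y y‖ ^ 2 * BB Φ A W y) = ∑ x, TT A W x y * Vr Φ (TT A W) x := by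
  unfold BB
  rw [mul_sum, mul_sum]
  refine sum_congr rfl fun x _ => ?_
  unfold TT KK
  rw [Gr_eq_gw hA hW y x, norm_mul, mul_pow]
  ring

/-- `Σ_x T_xy V_x ≤ CC` -/
theorem sum_TV_le_CC (hA : A.IsSymm) (hW : ∀ x, (W x).im < 0) (y : ι) :
    ∑ x, TT A W x y * Vr Φ (TT A W) x ≤ CC Φ A W y := by
  refine sum_le_sum fun x _ => mul_le_mul_of_nonneg_left ?_ (TT_nonneg hW x y)
  have : 0 ≤ ∑ b, TT A W y b / pr (TT A W) y * tt Φ x b := sum_nonneg fun b _ =>
    mul_nonneg (div_nonneg (TT_nonneg hW y b) (pr_TT_pos hA hW y).le) (tt_nonneg x b)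
  linarith

/-- **(2)**: two potentials at `y`, literal form of the signature file -/
theorem th1_diff (hA : A.IsSymm) (hW : ∀ x, (W x).im < 0) {T : ℝ} (hT : 0 ≤ T) {J : ℕ}
    (hΦ : HasFam Φ J) (ht4 : ∀ x y, tt Φ x y ≤ 4 ^ J) (y : ι) (v v0 : ℝ) :
    |th1 Φ A (Real.exp (-T)) J y (rez W y v) - th1 Φ A (Real.exp (-T)) J y (rez W y v0)| ≤
      |v - v0| * ‖Gr A (rez W y v) y y‖ * ‖Gr A (rez W y v0) y y‖ *
        (200 * (T + 1) * (J + 2) * Nh Φ A W y +
          200 * Real.exp (T / 2) * Real.sqrt ((J + 2) * Nh Φ A W y) *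
            Real.sqrt (BB Φ A (rez W y v0) y)) := by
  have h0 := rez_neg hW y v0
  have hN := Nh_nonneg (Φ := Φ) (A := A) hW y
  have hB := BB_nonneg (Φ := Φ) hA h0 y
  have h := th1_two hA hW hΦ ht4 y hT v v0
  have h1 : ∑ k ∈ range (J + 2), 112 * (T + 1) * Nk Φ A W J (k + 1) y ≤
      200 * (T + 1) * (J + 2) * Nh Φ A W y := by
    have h2 : ∀ k ∈ range (J + 2), 112 * (T + 1) * Nk Φ A W J (k + 1) y ≤
        200 * (T + 1) * Nh Φ A W y := fun k _ => by
      have h3 := mul_le_mul_of_nonneg_left (Nk_le_Nh (Φ := Φ) (A := A) hW J (k + 1) y)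
        (show (0 : ℝ) ≤ 112 * (T + 1) by linarith)
      have h4 := mul_nonneg (show (0 : ℝ) ≤ T + 1 by linarith) hN
      nlinarith
    refine (sum_le_sum h2).trans (le_of_eq ?_)
    rw [sum_const, card_range, nsmul_eq_mul]
    push_cast
    ring
  have h5 : ∑ k ∈ range (J + 2), 40 * Real.exp (T / 2) * (Real.sqrt (Nk Φ A W J (k + 1) y) *
      Real.sqrt (Bk Φ A (rez W y v0) J k y)) ≤
      200 * Real.exp (T / 2) * Real.sqrt ((J + 2) * Nh Φ A W y) *
            Real.sqrt (BB Φ A (rez W y v0) y) := by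
    rw [← mul_sum]
    have h6 : ∑ k ∈ range (J + 2), Real.sqrt (Nk Φ A W J (k + 1) y) *
        Real.sqrt (Bk Φ A (rez W y v0) J k y) ≤
        Real.sqrt ((J + 2) * Nh Φ A W y) * Real.sqrt (BB Φ A (rez W y v0) y) := by
      refine (Real.sum_sqrt_mul_sqrt_le (s := range (J + 2))
        (f := fun k => Nk Φ A W J (k + 1) y) (g := fun k => Bk Φ A (rez W y v0) J k y)
        (fun k => Nk_nonneg hW J (k + 1) y) fun k => Bk_nonneg hA h0 J k y).trans ?_
      rw [sum_Bk]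
      refine mul_le_mul_of_nonneg_right (Real.sqrt_le_sqrt ?_) (Real.sqrt_nonneg _)
      refine (sum_le_sum fun k (_ : k ∈ range (J + 2)) =>
        Nk_le_Nh (Φ := Φ) (A := A) hW J (k + 1) y).trans (le_of_eq ?_)
      rw [sum_const, card_range, nsmul_eq_mul]
      push_cast
      ring
    have h7 : 0 ≤ Real.sqrt ((J + 2) * Nh Φ A W y) * Real.sqrt (BB Φ A (rez W y v0) y) := by
      positivity
    have h8 := mul_le_mul_of_nonneg_left h6 (by positivity : 0 ≤ 40 * Real.exp (T / 2))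
    refine h8.trans ?_
    have h9 := mul_nonneg (Real.exp_pos (T / 2)).le h7
    nlinarith
  refine h.trans ?_
  rw [← mul_assoc]
  exact mul_le_mul_of_nonneg_left (add_le_add h1 h5) (by positivity)

end P365T2.H775
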