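import Vale.Agent.P365.T2.H775.Two
import Vale.Agent.P365.T2.H761.Pol
import Vale.Agent.P365.T2.H942.Lh

/-!
# P365 T2: local law error of the one-body entropy, deterministic half (helper775)

`th1_step`: two potentials at the site `y`, the `G'`-part of the angular derivative of the entropy.
-/

set_option linter.all false

namespace P365T2.H775

open Finset Complex P365L P365T1
open scoped ComplexConjugate
open P365T2.H37 (wk rho Hc)
open P365T2.H844
open Vale.Agent.P365.T2.H417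
open Vale.Agent.P365.T2.H789
open P365T2.H942.Lh (lh)

variable {E : Type*} [NormedAddCommGroup E] [InnerProductSpace ℝ E]
variable {ι : Type*} [Fintype ι] [DecidableEq ι]

/-- `Σ_b e_b |c_b|² H_k(b, y)`, `c_b = G_by/G_yy`; independent of `V_y` -/
noncomputable def Nk (Φ : ι → E) (A : Matrix ι ι ℝ) (W : ι → ℂ) (J k : ℕ) (y : ι) : ℝ :=
  ∑ b, (-(W b).im) * ‖gw A W y b‖ ^ 2 * Hc J k (tt Φ b y)

/-- `Σ_x e_x |c_x|² rho_k u_xk` -/
noncomputable def Bk (Φ : ι → E) (A : Matrix ι ι ℝ) (W : ι → ℂ) (J k : ℕ) (y : ι) : ℝ :=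
  ∑ x, (-(W x).im) * ‖gw A W y x‖ ^ 2 * (rho k * ur Φ (TT A W) J k x)

/-- the kernels `H_k` are finite families of squares -/
def HasFam (Φ : ι → E) (J : ℕ) : Prop :=
  ∀ k, ∃ (m : ℕ) (f : Fin m → ι → ℝ), ∀ x b, Hc J k (tt Φ x b) = ∑ j, (f j x - f j b) ^ 2

variable {Φ : ι → E} {A : Matrix ι ι ℝ} {W : ι → ℂ}

theorem Hc_nonneg {J k : ℕ} {t : ℝ} (ht : 0 ≤ t) : 0 ≤ Hc J k t := by
  unfold P365T2.H37.Hc
  split_ifs
  · exact le_rfl
  · exact P365T2.H37.hk_nonneg (by positivity) ht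
  · exact ht

theorem Hc_le_rho {J k : ℕ} (hk : k < J + 2) {t : ℝ} (ht : 0 ≤ t) (ht4 : t ≤ 4 ^ J) :
    Hc J (k + 1) t ≤ 4 * rho k := by
  unfold P365T2.H37.Hc P365T2.H37.rho
  rw [if_neg (Nat.succ_ne_zero k)]
  by_cases h1 : k + 1 ≤ J + 1
  · rw [if_pos h1]
    refine (P365T2.H37.hk_le_left (by positivity) ht).trans ?_
    simp only [Nat.add_sub_cancel]
    by_cases h0 : k = 0
    · subst h0; norm_num
    · rw [if_neg h0]
      obtain ⟨n, rfl⟩ := Nat.exists_eq_succ_of_ne_zero h0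
      simp only [Nat.succ_eq_add_one, Nat.add_sub_cancel]
      rw [pow_succ]
      linarith
  · rw [if_neg h1]
    have h2 : k = J + 1 := by omega
    subst h2
    rw [if_neg (Nat.succ_ne_zero J), Nat.add_sub_cancel]
    have : (0 : ℝ) < 4 ^ J := by positivity
    linarith

theorem Nk_mono (hW : ∀ x, (W x).im < 0) (J k : ℕ) (y : ι) : Nk Φ A W J k y ≤ Nk Φ A W J (k + 1) y :=
  sum_le_sum fun b _ => mul_le_mul_of_nonneg_left (P365T2.H37.Hc_mono (tt_nonneg b y))
    (mul_nonneg (by linarith [hW b]) (sq_nonneg _))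

theorem Nk_nonneg (hW : ∀ x, (W x).im < 0) (J k : ℕ) (y : ι) : 0 ≤ Nk Φ A W J k y :=
  sum_nonneg fun b _ => mul_nonneg (mul_nonneg (by linarith [hW b]) (sq_nonneg _))
    (Hc_nonneg (tt_nonneg b y))

theorem Bk_nonneg (hA : A.IsSymm) (hW : ∀ x, (W x).im < 0) (J k : ℕ) (y : ι) :
    0 ≤ Bk Φ A W J k y :=
  sum_nonneg fun x _ => mul_nonneg (mul_nonneg (by linarith [hW x]) (sq_nonneg _))
    (mul_nonneg (P365T2.H37.rho_pos k).le (ur_nonneg (TT_nonneg hW) (pr_TT_pos hA hW) x))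

theorem Nk_rez (hA : A.IsSymm) (hW : ∀ x, (W x).im < 0) (J k : ℕ) (y : ι) (v : ℝ) :
    Nk Φ A (rez W y v) J k y = Nk Φ A W J k y := by
  unfold Nk
  exact sum_congr rfl fun b _ => by rw [rez_im, gw_rez hA hW]

/-- double sum of a kernel against the unit wave -/
theorem sum_Wc_le (hA : A.IsSymm) (hW : ∀ x, (W x).im < 0) {J : ℕ} (hΦ : HasFam Φ J) (k : ℕ)
    (y : ι) :
    ∑ x, (-(W x).im) * ‖gw A W y x‖ ^ 2 * Wc A W y (fun b => wk J k (tt Φ x b)) ≤
      4 * Sf A W y * Nk Φ A W J (k + 1) y := by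
  obtain ⟨m, f, hf⟩ := hΦ (k + 1)
  have he : ∀ x, 0 ≤ -(W x).im := fun x => by linarith [hW x]
  have h1 : ∀ x b, wk J k (tt Φ x b) ≤ 2 * Hc J (k + 1) (tt Φ x y) + 2 * Hc J (k + 1) (tt Φ b y) := by
    intro x b
    have h2 : wk J k (tt Φ x b) ≤ Hc J (k + 1) (tt Φ x b) := by
      have := Hc_nonneg (J := J) (k := k) (tt_nonneg (Φ := Φ) x b)
      unfold P365T2.H37.wk
      linarith
    refine h2.trans ?_
    rw [hf, hf, hf, mul_sum, mul_sum, ← sum_add_distrib]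
    refine sum_le_sum fun j _ => ?_
    nlinarith [sq_nonneg ((f j x - f j y) + (f j b - f j y))]
  calc ∑ x, (-(W x).im) * ‖gw A W y x‖ ^ 2 * Wc A W y (fun b => wk J k (tt Φ x b))
      ≤ ∑ x, (-(W x).im) * ‖gw A W y x‖ ^ 2 *
          ∑ b, (-(W b).im * (2 * Hc J (k + 1) (tt Φ x y) + 2 * Hc J (k + 1) (tt Φ b y))) *
            ‖gw A W y b‖ ^ 2 := by
        refine sum_le_sum fun x _ => mul_le_mul_of_nonneg_left ?_
          (mul_nonneg (he x) (sq_nonneg _))
        unfold Wc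
        exact sum_le_sum fun b _ => mul_le_mul_of_nonneg_right
          (mul_le_mul_of_nonneg_left (h1 x b) (he b)) (sq_nonneg _)
    _ = 4 * Sf A W y * Nk Φ A W J (k + 1) y := by
        have e1 : ∀ x, ∑ b, (-(W b).im * (2 * Hc J (k + 1) (tt Φ x y) +
            2 * Hc J (k + 1) (tt Φ b y))) * ‖gw A W y b‖ ^ 2 =
            2 * Hc J (k + 1) (tt Φ x y) * Sf A W y + 2 * Nk Φ A W J (k + 1) y := by
          intro x
          unfold Sf Nk
          rw [mul_sum, mul_sum, ← sum_add_distrib]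
          exact sum_congr rfl fun b _ => by ring
        simp only [e1]
        have e2 : ∀ x, (-(W x).im) * ‖gw A W y x‖ ^ 2 * (2 * Hc J (k + 1) (tt Φ x y) * Sf A W y +
            2 * Nk Φ A W J (k + 1) y) =
            2 * Sf A W y * ((-(W x).im) * ‖gw A W y x‖ ^ 2 * Hc J (k + 1) (tt Φ x y)) +
            2 * Nk Φ A W J (k + 1) y * ((-(W x).im) * ‖gw A W y x‖ ^ 2) := fun x => by ring
        simp only [e2]
        rw [sum_add_distrib, ← mul_sum, ← mul_sum]
        have e3 : ∑ x, (-(W x).im) * ‖gw A W y x‖ ^ 2 * Hc J (k + 1) (tt Φ x y) =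
            Nk Φ A W J (k + 1) y := rfl
        have e4 : ∑ x, (-(W x).im) * ‖gw A W y x‖ ^ 2 = Sf A W y := rfl
        rw [e3, e4]
        ring

/-- the row sum `RR` of the kernel `w_k`, polarised -/
theorem norm_S0_le (hA : A.IsSymm) (hW : ∀ x, (W x).im < 0) {J : ℕ} (hΦ : HasFam Φ J) {k : ℕ}
    (hk : k < J + 2) (ht4 : ∀ x y, tt Φ x y ≤ 4 ^ J) (y : ι) {T K q : ℝ} (hT : 0 ≤ T)
    (l : ι → ℝ) (h0 : ∀ x, 0 ≤ l x) (h1 : ∀ x, l x ≤ K)
    (hq : 0 ≤ q) (h2 : ∀ x, l x ^ 2 ≤ q * ur Φ (TT A W) J k x) :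
    ‖∑ x, ((-(W x).im * (l x - T) : ℝ) : ℂ) *
        (gw A W y x * RR A W y (fun b => wk J k (tt Φ x b)) x)‖ ≤
      (8 * T + 6 * K) * Nk Φ A W J (k + 1) y +
        4 * Real.sqrt q * (Real.sqrt (Nk Φ A W J (k + 1) y) * Real.sqrt (Bk Φ A W J k y)) := by
  have hr := P365T2.H37.rho_pos k
  -- the two parts of the kernel
  set SS : ℕ → (ι → ℝ) → ℂ := fun n m => ∑ x, ((-(W x).im * m x : ℝ) : ℂ) * gw A W y x *
    ∑ b, ((-(W b).im * Hc J n (tt Φ x b) : ℝ) : ℂ) * (conj (Gr A W x b) * gw A W y b) with hSS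
  have e1 : ∑ x, ((-(W x).im * (l x - T) : ℝ) : ℂ) *
        (gw A W y x * RR A W y (fun b => wk J k (tt Φ x b)) x) =
      (SS (k + 1) l - SS k l) - (T : ℂ) * (SS (k + 1) (fun _ => 1) - SS k (fun _ => 1)) := by
    rw [hSS]
    simp only
    rw [← sum_sub_distrib, ← sum_sub_distrib, mul_sum, ← sum_sub_distrib]
    refine sum_congr rfl fun x _ => ?_
    have e2 : RR A W y (fun b => wk J k (tt Φ x b)) x =
        ∑ b, ((-(W b).im * Hc J (k + 1) (tt Φ x b) : ℝ) : ℂ) *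
          (conj (Gr A W x b) * gw A W y b) -
        ∑ b, ((-(W b).im * Hc J k (tt Φ x b) : ℝ) : ℂ) * (conj (Gr A W x b) * gw A W y b) := by
      unfold RR P365T2.H37.wk
      rw [← sum_sub_distrib]
      refine sum_congr rfl fun b _ => ?_
      push_cast
      ring
    rw [e2]
    push_cast
    ring
  have hP : ∀ n, Nk Φ A W J n y ≤ Nk Φ A W J (k + 1) y → (∀ x, Hc J n (tt Φ x y) ≤ 4 * rho k) →
      ‖SS n l‖ ≤ 3 * K * Nk Φ A W J (k + 1) y +
        2 * Real.sqrt q * (Real.sqrt (Nk Φ A W J (k + 1) y) * Real.sqrt (Bk Φ A W J k y)) := by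
    intro n hn hn4
    obtain ⟨m, f, hf⟩ := hΦ n
    have hK : 0 ≤ K := (h0 y).trans (h1 y)
    have h3 := P365T2.H761.frozen_pol hA hW y f (fun x b => Hc J n (tt Φ x b)) hf l h0 h1 hn4
    refine h3.trans ?_
    have e3 : (∑ b, (-(W b).im) * ‖gw A W y b‖ ^ 2 * Hc J n (tt Φ b y)) = Nk Φ A W J n y := rfl
    simp only [e3]
    have h4 : 3 * K * Nk Φ A W J n y ≤ 3 * K * Nk Φ A W J (k + 1) y :=
      mul_le_mul_of_nonneg_left hn (by positivity)
    have h5 : Real.sqrt (4 * rho k * Nk Φ A W J n y) *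
        Real.sqrt (∑ x, (-(W x).im) * l x ^ 2 * ‖gw A W y x‖ ^ 2) ≤
        2 * Real.sqrt q * (Real.sqrt (Nk Φ A W J (k + 1) y) * Real.sqrt (Bk Φ A W J k y)) := by
      have h6 : ∑ x, (-(W x).im) * l x ^ 2 * ‖gw A W y x‖ ^ 2 ≤ q / rho k * Bk Φ A W J k y := by
        unfold Bk
        rw [mul_sum]
        refine sum_le_sum fun x _ => ?_
        have hx : 0 ≤ -(W x).im := by linarith [hW x]
        calc (-(W x).im) * l x ^ 2 * ‖gw A W y x‖ ^ 2
            ≤ (-(W x).im) * (q * ur Φ (TT A W) J k x) * ‖gw A W y x‖ ^ 2 :=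
              mul_le_mul_of_nonneg_right (mul_le_mul_of_nonneg_left (h2 x) hx) (sq_nonneg _)
          _ = _ := by field_simp
      rw [← Real.sqrt_mul (mul_nonneg (by positivity) (Nk_nonneg hW J n y))]
      have e4 : 2 * Real.sqrt q * (Real.sqrt (Nk Φ A W J (k + 1) y) *
          Real.sqrt (Bk Φ A W J k y)) =
          Real.sqrt (4 * q * (Nk Φ A W J (k + 1) y * Bk Φ A W J k y)) := by
        rw [Real.sqrt_mul (by positivity), Real.sqrt_mul (by norm_num),
          Real.sqrt_mul (Nk_nonneg hW J (k + 1) y)]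
        rw [show Real.sqrt 4 = 2 by
          rw [show (4 : ℝ) = 2 ^ 2 by norm_num]; exact Real.sqrt_sq (by norm_num)]
      rw [e4]
      refine Real.sqrt_le_sqrt ?_
      have hB := Bk_nonneg (Φ := Φ) hA hW J k y
      have hN := Nk_nonneg (Φ := Φ) (A := A) hW J n y
      calc 4 * rho k * Nk Φ A W J n y * ∑ x, (-(W x).im) * l x ^ 2 * ‖gw A W y x‖ ^ 2
          ≤ 4 * rho k * Nk Φ A W J n y * (q / rho k * Bk Φ A W J k y) :=
            mul_le_mul_of_nonneg_left h6 (by positivity)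
        _ = 4 * q * (Nk Φ A W J n y * Bk Φ A W J k y) := by field_simp
        _ ≤ _ := by
            refine mul_le_mul_of_nonneg_left (mul_le_mul_of_nonneg_right hn hB) (by positivity)
    linarith
  have hC : ∀ n, Nk Φ A W J n y ≤ Nk Φ A W J (k + 1) y →
      ‖SS n (fun _ => 1)‖ ≤ 4 * Nk Φ A W J (k + 1) y := by
    intro n hn
    obtain ⟨m, f, hf⟩ := hΦ n
    have h3 := P365T2.H761.const_pol hA hW y f (fun x b => Hc J n (tt Φ x b)) hf
    have e3 : SS n (fun _ => 1) = ∑ x, ((-(W x).im : ℝ) : ℂ) * gw A W y x *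
        ∑ b, ((-(W b).im * Hc J n (tt Φ x b) : ℝ) : ℂ) * (conj (Gr A W x b) * gw A W y b) := by
      rw [hSS]
      simp only [mul_one]
    rw [e3]
    refine h3.trans ?_
    have e4 : (∑ b, (-(W b).im) * ‖gw A W y b‖ ^ 2 * Hc J n (tt Φ b y)) = Nk Φ A W J n y := rfl
    simp only [e4]
    linarith
  have hm := Nk_mono (Φ := Φ) (A := A) hW J k y
  have a1 := hP (k + 1) le_rfl fun x => Hc_le_rho hk (tt_nonneg x y) (ht4 x y)
  have a2 := hP k hm fun x => (P365T2.H37.Hc_mono (tt_nonneg x y)).trans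
    (Hc_le_rho hk (tt_nonneg x y) (ht4 x y))
  have a3 := hC (k + 1) le_rfl
  have a4 := hC k hm
  rw [e1]
  refine (norm_sub_le _ _).trans ?_
  rw [norm_mul, Complex.norm_real, Real.norm_eq_abs, abs_of_nonneg hT]
  have b1 := norm_sub_le (SS (k + 1) l) (SS k l)
  have b2 := mul_le_mul_of_nonneg_left
    (norm_sub_le (SS (k + 1) (fun _ => (1 : ℝ))) (SS k (fun _ => 1))) hT
  have b3 : T * (‖SS (k + 1) (fun _ => (1 : ℝ))‖ + ‖SS k (fun _ => (1 : ℝ))‖) ≤
      T * (8 * Nk Φ A W J (k + 1) y) := mul_le_mul_of_nonneg_left (by linarith) hT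
  linarith

/-- row energy of the kernel `w_k`: `Σ_b w_k T_xb = rho_k pr_x u_xk` -/
theorem row_eq (hA : A.IsSymm) (hW : ∀ x, (W x).im < 0) (J k : ℕ) (x : ι) :
    ∑ b, wk J k (tt Φ x b) * TT A W x b = rho k * pr (TT A W) x * ur Φ (TT A W) J k x := by
  have hr := (P365T2.H37.rho_pos k).ne'
  have hp := (pr_TT_pos hA hW x).ne'
  unfold ur Pw
  rw [mul_div_assoc', mul_sum, eq_div_iff hr, sum_mul]
  refine sum_congr rfl fun b _ => ?_
  field_simp

theorem ur_eq' (hA : A.IsSymm) (hW : ∀ x, (W x).im < 0) (J k : ℕ) (x : ι) :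
    ur Φ (TT A W) J k x = (∑ b, wk J k (tt Φ x b) * TT A W x b) / (rho k * pr (TT A W) x) := by
  have hr := (P365T2.H37.rho_pos k).ne'
  have hp := (pr_TT_pos hA hW x).ne'
  rw [row_eq hA hW]
  field_simp

theorem Gf1_eq {T u : ℝ} (hu : 0 ≤ u) : Gf1 (Real.exp (-T)) u = lh (Real.exp (-T)) u - T := by
  rw [P365T2.H942.Lh.lh_eq (Real.exp_pos _) hu, Real.log_exp]
  unfold Gf1
  ring

theorem pr_one (W : ι → ℂ) (x : ι) : pr (TT A W) x = ∑ b, (fun _ => (1 : ℝ)) b * TT A W x b := by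
  simp [P365T2.H844.pr]

theorem Wc_one (W : ι → ℂ) (y : ι) : Wc A W y (fun _ => 1) = Sf A W y := by
  unfold Wc Sf
  simp

/-- **one scale**: the `G'`-part of the angular derivative at two potentials -/
theorem th1_scale (hA : A.IsSymm) (hW : ∀ x, (W x).im < 0) {J : ℕ} (hΦ : HasFam Φ J) {k : ℕ}
    (hk : k < J + 2) (ht4 : ∀ x y, tt Φ x y ≤ 4 ^ J) (y : ι) {T : ℝ} (hT : 0 ≤ T) (v : ℝ) :
    |∑ x, Gf1 (Real.exp (-T)) (ur Φ (TT A (rez W y v)) J k x) *
        ∑ b, wk J k (tt Φ x b) * tT A (rez W y v) y x b -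
      ∑ x, Gf1 (Real.exp (-T)) (ur Φ (TT A W) J k x) *
        ∑ b, wk J k (tt Φ x b) * tT A W y x b| ≤
      ‖dt A W y v‖ * (112 * (T + 1) * Nk Φ A W J (k + 1) y +
        40 * Real.exp (T / 2) * (Real.sqrt (Nk Φ A W J (k + 1) y) *
          Real.sqrt (Bk Φ A W J k y))) := by
  have hW' := rez_neg hW y v
  set d := Real.exp (-T) with hd
  have hd0 : 0 < d := Real.exp_pos _
  have hd1 : d ≤ 1 := Real.exp_le_one_iff.2 (by linarith)
  have hlogd : Real.log (1 / d) = T := by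
    rw [hd, one_div, Real.log_inv, Real.log_exp, neg_neg]
  have hr := P365T2.H37.rho_pos k
  have hS := Sf_pos hA hW y
  set N := Nk Φ A W J (k + 1) y with hN
  set B := Bk Φ A W J k y with hB
  have hN0 : 0 ≤ N := Nk_nonneg hW J (k + 1) y
  have hB0 : 0 ≤ B := Bk_nonneg hA hW J k y
  set w : ι → ι → ℝ := fun x b => wk J k (tt Φ x b) with hw
  have hw0 : ∀ x b, 0 ≤ w x b := fun x b => P365T2.H37.wk_nonneg (tt_nonneg x b)
  set u : ι → ℝ := fun x => ur Φ (TT A W) J k x with hu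
  set u' : ι → ℝ := fun x => ur Φ (TT A (rez W y v)) J k x with hu'
  have hu0 : ∀ x, 0 ≤ u x := fun x => ur_nonneg (TT_nonneg hW) (pr_TT_pos hA hW) x
  have hu0' : ∀ x, 0 ≤ u' x := fun x => ur_nonneg (TT_nonneg hW') (pr_TT_pos hA hW') x
  have hu4 : ∀ x, u x ≤ 4 := fun x => (ur_le_three hA hW hk ht4 x).trans (by norm_num)
  have hu4' : ∀ x, u' x ≤ 4 := fun x => (ur_le_three hA hW' hk ht4 x).trans (by norm_num)
  set n : ι → ℝ := fun x => ∑ b, w x b * tT A W y x b with hn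
  set n' : ι → ℝ := fun x => ∑ b, w x b * tT A (rez W y v) y x b with hn'
  have e1 : ∑ x, Gf1 d (u' x) * n' x - ∑ x, Gf1 d (u x) * n x =
      (∑ x, (lh d (u x) - T) * n' x - ∑ x, (lh d (u x) - T) * n x) +
        ∑ x, (lh d (u' x) - lh d (u x)) * n' x := by
    rw [← sum_sub_distrib, ← sum_sub_distrib, ← sum_add_distrib]
    refine sum_congr rfl fun x _ => ?_
    rw [hd, Gf1_eq (hu0 x), Gf1_eq (hu0' x)]
    ring
  have hl0 : ∀ x, 0 ≤ lh d (u x) := fun x => P365T2.H942.Lh.lh_nonneg hd0 (hu0 x)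
  have hl1 : ∀ x, lh d (u x) ≤ T + 4 := fun x => by
    have := P365T2.H942.Lh.lh_le hd0 hd1 (hu0 x) (hu4 x)
    rwa [hlogd] at this
  have hl2 : ∀ x, lh d (u x) ^ 2 ≤ 4 / d * u x := fun x => by
    have := P365T2.H942.Lh.lh_sq_le hd0 (hu0 x)
    calc lh d (u x) ^ 2 ≤ 4 * u x / d := this
      _ = _ := by ring
  -- the wave sum of the kernel
  have hV := sum_Wc_le (A := A) (W := W) hA hW hΦ k y
  set V : ι → ℝ := fun x => (-(W x).im) * ‖gw A W y x‖ ^ 2 * Wc A W y (w x) with hVd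
  have hWc0 : ∀ x, 0 ≤ Wc A W y (w x) := fun x => sum_nonneg fun b _ =>
    mul_nonneg (mul_nonneg (by linarith [hW b]) (hw0 x b)) (sq_nonneg _)
  have hV0 : ∀ x, 0 ≤ V x := fun x =>
    mul_nonneg (mul_nonneg (by linarith [hW x]) (sq_nonneg _)) (hWc0 x)
  have hV' : ∑ x, V x ≤ 4 * Sf A W y * N := hV
  -- frozen part
  have f1 : |∑ x, (lh d (u x) - T) * n' x - ∑ x, (lh d (u x) - T) * n x| ≤
      ‖dt A W y v‖ * ((32 * T + 64) * N + 16 * Real.exp (T / 2) *
        (Real.sqrt N * Real.sqrt B)) := by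
    refine (frozen_diff hA hW y v w hw0 fun x => lh d (u x) - T).trans
      (mul_le_mul_of_nonneg_left ?_ (norm_nonneg _))
    have g1 := norm_S0_le hA hW hΦ hk ht4 y (T := T) (K := T + 4) (q := 4 / d) hT
      (fun x => lh d (u x)) hl0 hl1 (by positivity) hl2
    have g2 : (∑ x, -(W x).im * |lh d (u x) - T| * ‖gw A W y x‖ ^ 2 * Wc A W y (w x)) /
        Sf A W y ≤ 4 * (T + 4) * N := by
      rw [div_le_iff₀ hS]
      calc ∑ x, -(W x).im * |lh d (u x) - T| * ‖gw A W y x‖ ^ 2 * Wc A W y (w x)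
          ≤ ∑ x, (T + 4) * V x := by
            refine sum_le_sum fun x _ => ?_
            have hx : |lh d (u x) - T| ≤ T + 4 := by
              rw [abs_le]
              constructor <;> linarith [hl0 x, hl1 x]
            have e2 : -(W x).im * |lh d (u x) - T| * ‖gw A W y x‖ ^ 2 * Wc A W y (w x) =
                |lh d (u x) - T| * V x := by rw [hVd]; ring
            rw [e2]
            exact mul_le_mul_of_nonneg_right hx (hV0 x)
        _ = (T + 4) * ∑ x, V x := by rw [mul_sum]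
        _ ≤ (T + 4) * (4 * Sf A W y * N) := mul_le_mul_of_nonneg_left hV' (by linarith)
        _ = _ := by ring
    have g3 : Real.sqrt (4 / d) = 2 * Real.exp (T / 2) := by
      have : 4 / d = (2 * Real.exp (T / 2)) ^ 2 := by
        rw [mul_pow, ← Real.exp_nat_mul, hd, Real.exp_neg, div_inv_eq_mul]
        norm_num
        ring_nf
      rw [this]
      exact Real.sqrt_sq (by positivity)
    rw [g3] at g1
    simp only [← hN, ← hB] at g1
    have g4 : 2 * ‖∑ x, ((-(W x).im * (lh d (u x) - T) : ℝ) : ℂ) *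
        (gw A W y x * RR A W y (w x) x)‖ ≤ 2 * ((8 * T + 6 * (T + 4)) * N +
          4 * (2 * Real.exp (T / 2)) * (Real.sqrt N * Real.sqrt B)) :=
      mul_le_mul_of_nonneg_left g1 (by norm_num)
    have h5 : 0 ≤ N * T := mul_nonneg hN0 hT
    nlinarith [g4, g2]
  -- moving part
  have f2 : |∑ x, (lh d (u' x) - lh d (u x)) * n' x| ≤
      ‖dt A W y v‖ * ((12 * T + 48) * N + 24 * Real.exp (T / 2) *
        (Real.sqrt N * Real.sqrt B)) := by
    refine (abs_sum_le_sum_abs _ _).trans ?_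
    have h3 : ∀ x, |(lh d (u' x) - lh d (u x)) * n' x| ≤
        3 * (T + 4) * ‖dt A W y v‖ / Sf A W y * (V x + Real.sqrt (V x) *
          (Real.sqrt (Sf A W y) * Real.sqrt ((-(W x).im) * ‖gw A W y x‖ ^ 2 *
            (rho k * u x)))) := by
      intro x
      have hx : 0 ≤ -(W x).im := by linarith [hW x]
      rw [abs_mul]
      have k1 := sum_tT_sq_le hA hW' y x (w x) (hw0 x)
      rw [Sf_rez hA hW, gw_rez hA hW, Wc_rez hA hW, rez_im] at k1
      have k2 : |n' x| ≤ Real.sqrt (V x) * Real.sqrt (∑ b, w x b * TT A (rez W y v) x b) /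
          Sf A W y := by
        rw [le_div_iff₀ hS, mul_comm]
        exact k1
      have k3 := sqrt_row_diff hA hW y x v (w x) (hw0 x)
      have k4 := sqrt_row_diff hA hW y x v (fun _ => 1) fun _ => zero_le_one
      rw [← pr_one, ← pr_one, Wc_one] at k4
      have k5 := P365T2.H942.Lh.lh_move' (d := d) hd0 hd1
        (sum_nonneg fun b _ => mul_nonneg (hw0 x b) (TT_nonneg hW' x b))
        (sum_nonneg fun b _ => mul_nonneg (hw0 x b) (TT_nonneg hW x b))
        (pr_TT_pos hA hW' x) (pr_TT_pos hA hW x) hr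
        (by rw [← ur_eq' hA hW']; exact hu4' x) (by rw [← ur_eq' hA hW]; exact hu4 x) k3 k4
      rw [← ur_eq' hA hW', ← ur_eq' hA hW, hlogd] at k5
      have k6 : |lh d (u' x) - lh d (u x)| * |n' x| ≤
          (|lh d (u' x) - lh d (u x)| * Real.sqrt (∑ b, w x b * TT A (rez W y v) x b)) *
            (Real.sqrt (V x) / Sf A W y) := by
        calc |lh d (u' x) - lh d (u x)| * |n' x|
            ≤ |lh d (u' x) - lh d (u x)| * (Real.sqrt (V x) *
              Real.sqrt (∑ b, w x b * TT A (rez W y v) x b) / Sf A W y) :=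
              mul_le_mul_of_nonneg_left k2 (abs_nonneg _)
          _ = _ := by ring
      refine k6.trans ((mul_le_mul_of_nonneg_right k5 (by positivity)).trans (le_of_eq ?_))
      have s1 : Real.sqrt (V x) * Real.sqrt (V x) = V x := Real.mul_self_sqrt (hV0 x)
      have s2 : Real.sqrt (-(W x).im * ‖gw A W y x‖ ^ 2 * Sf A W y) *
          Real.sqrt (rho k * u x) = Real.sqrt (Sf A W y) *
            Real.sqrt (-(W x).im * ‖gw A W y x‖ ^ 2 * (rho k * u x)) := by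
        rw [← Real.sqrt_mul (mul_nonneg (mul_nonneg hx (sq_nonneg _)) hS.le),
          ← Real.sqrt_mul hS.le]
        congr 1
        ring
      have s3 : Real.sqrt (-(W x).im * ‖gw A W y x‖ ^ 2 * Wc A W y (w x)) =
          Real.sqrt (V x) := rfl
      rw [s3]
      calc 3 * (T + 4) * (‖dt A W y v‖ * Real.sqrt (V x) + ‖dt A W y v‖ *
            Real.sqrt (-(W x).im * ‖gw A W y x‖ ^ 2 * Sf A W y) * Real.sqrt (rho k * u x)) *
            (Real.sqrt (V x) / Sf A W y)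
          = 3 * (T + 4) * ‖dt A W y v‖ / Sf A W y * (Real.sqrt (V x) * Real.sqrt (V x) +
            Real.sqrt (V x) * (Real.sqrt (-(W x).im * ‖gw A W y x‖ ^ 2 * Sf A W y) *
              Real.sqrt (rho k * u x))) := by ring
        _ = _ := by rw [s1, s2]
    have h4 := sum_le_sum fun x (_ : x ∈ univ) => h3 x
    refine h4.trans ?_
    rw [← mul_sum, sum_add_distrib]
    have c1 : ∑ x, Real.sqrt (V x) * (Real.sqrt (Sf A W y) *
        Real.sqrt ((-(W x).im) * ‖gw A W y x‖ ^ 2 * (rho k * u x))) ≤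
        2 * Sf A W y * (Real.sqrt N * Real.sqrt B) := by
      have c2 : ∑ x, Real.sqrt (V x) * (Real.sqrt (Sf A W y) *
          Real.sqrt ((-(W x).im) * ‖gw A W y x‖ ^ 2 * (rho k * u x))) =
          Real.sqrt (Sf A W y) * ∑ x, Real.sqrt (V x) *
            Real.sqrt ((-(W x).im) * ‖gw A W y x‖ ^ 2 * (rho k * u x)) := by
        rw [mul_sum]
        exact sum_congr rfl fun x _ => by ring
      have c3 := Real.sum_sqrt_mul_sqrt_le (s := (univ : Finset ι)) (f := V)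
        (g := fun x => (-(W x).im) * ‖gw A W y x‖ ^ 2 * (rho k * u x)) hV0 fun x =>
          mul_nonneg (mul_nonneg (by linarith [hW x]) (sq_nonneg _)) (mul_nonneg hr.le (hu0 x))
      have c4 : ∑ x, (-(W x).im) * ‖gw A W y x‖ ^ 2 * (rho k * u x) = B := rfl
      rw [c4] at c3
      have c5 : Real.sqrt (∑ x, V x) ≤ 2 * (Real.sqrt (Sf A W y) * Real.sqrt N) := by
        refine (Real.sqrt_le_sqrt hV').trans (le_of_eq ?_)
        rw [Real.sqrt_mul (by positivity), Real.sqrt_mul (by norm_num)]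
        rw [show Real.sqrt 4 = 2 by
          rw [show (4 : ℝ) = 2 ^ 2 by norm_num]; exact Real.sqrt_sq (by norm_num)]
        ring
      rw [c2]
      have c6 : Real.sqrt (Sf A W y) * Real.sqrt (Sf A W y) = Sf A W y :=
        Real.mul_self_sqrt hS.le
      calc _ ≤ Real.sqrt (Sf A W y) * ((2 * (Real.sqrt (Sf A W y) * Real.sqrt N)) *
            Real.sqrt B) := mul_le_mul_of_nonneg_left
            (c3.trans (mul_le_mul_of_nonneg_right c5 (Real.sqrt_nonneg _))) (Real.sqrt_nonneg _)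
        _ = 2 * (Real.sqrt (Sf A W y) * Real.sqrt (Sf A W y)) *
            (Real.sqrt N * Real.sqrt B) := by ring
        _ = _ := by rw [c6]
    have hexp : T + 4 ≤ 4 * Real.exp (T / 2) := by
      have := Real.add_one_le_exp (T / 2)
      linarith
    have hq : 0 ≤ Real.sqrt N * Real.sqrt B := by positivity
    calc 3 * (T + 4) * ‖dt A W y v‖ / Sf A W y * (∑ x, V x + ∑ x, Real.sqrt (V x) *
          (Real.sqrt (Sf A W y) * Real.sqrt ((-(W x).im) * ‖gw A W y x‖ ^ 2 *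
            (rho k * u x))))
        ≤ 3 * (T + 4) * ‖dt A W y v‖ / Sf A W y * (4 * Sf A W y * N +
          2 * Sf A W y * (Real.sqrt N * Real.sqrt B)) :=
          mul_le_mul_of_nonneg_left (add_le_add hV' c1) (by positivity)
      _ = ‖dt A W y v‖ * ((12 * T + 48) * N + 6 * (T + 4) * (Real.sqrt N * Real.sqrt B)) := by
          field_simp
          ring
      _ ≤ _ := by
          refine mul_le_mul_of_nonneg_left ?_ (norm_nonneg _)
          nlinarith [mul_le_mul_of_nonneg_right hexp hq]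
  have hfin : |∑ x, Gf1 d (u' x) * n' x - ∑ x, Gf1 d (u x) * n x| ≤ ‖dt A W y v‖ *
      ((32 * T + 64) * N + 16 * Real.exp (T / 2) * (Real.sqrt N * Real.sqrt B)) +
      ‖dt A W y v‖ * ((12 * T + 48) * N + 24 * Real.exp (T / 2) *
        (Real.sqrt N * Real.sqrt B)) := by
    rw [e1]
    exact (abs_add_le _ _).trans (add_le_add f1 f2)
  refine hfin.trans ?_
  rw [← mul_add]
  refine mul_le_mul_of_nonneg_left ?_ (norm_nonneg _)
  have := mul_nonneg hT hN0
  nlinarith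

/-- first part of the angular derivative of `Σ_x Σ_k rho_k pr_x G(u_xk)` (multiplier `G'`) -/
noncomputable def th1 (Φ : ι → E) (A : Matrix ι ι ℝ) (ε : ℝ) (J : ℕ) (y : ι) (W : ι → ℂ) : ℝ :=
  ∑ x, ∑ k ∈ range (J + 2), Gf1 ε (ur Φ (TT A W) J k x) * ∑ b, wk J k (tt Φ x b) * tT A W y x b

/-- second part (mass part) -/
noncomputable def th2 (Φ : ι → E) (A : Matrix ι ι ℝ) (ε : ℝ) (J : ℕ) (y : ι) (W : ι → ℂ) : ℝ :=
  ∑ x, ∑ k ∈ range (J + 2), rho k * (Gf ε (ur Φ (TT A W) J k x) -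
    ur Φ (TT A W) J k x * Gf1 ε (ur Φ (TT A W) J k x)) * ∑ b, tT A W y x b

theorem sum_tU (ε : ℝ) (J : ℕ) (y : ι) :
    ∑ x, ∑ k ∈ range (J + 2), tU Φ A W ε J k y x = th1 Φ A ε J y W + th2 Φ A ε J y W := by
  unfold th1 th2
  rw [← sum_add_distrib]
  refine sum_congr rfl fun x _ => ?_
  rw [← sum_add_distrib]
  refine sum_congr rfl fun k _ => ?_
  have hr := (P365T2.H37.rho_pos k).ne'
  unfold tU
  have e1 : ∑ b, wk J k (tt Φ x b) * tT A W y x b =
      rho k * ∑ b, wk J k (tt Φ x b) / rho k * tT A W y x b := by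
    rw [mul_sum]
    refine sum_congr rfl fun b _ => ?_
    field_simp
  rw [e1]
  ring

/-- **two potentials at one site**, all scales -/
theorem th1_step (hA : A.IsSymm) (hW : ∀ x, (W x).im < 0) {J : ℕ} (hΦ : HasFam Φ J)
    (ht4 : ∀ x y, tt Φ x y ≤ 4 ^ J) (y : ι) {T : ℝ} (hT : 0 ≤ T) (v : ℝ) :
    |th1 Φ A (Real.exp (-T)) J y (rez W y v) - th1 Φ A (Real.exp (-T)) J y W| ≤
      ‖dt A W y v‖ * (∑ k ∈ range (J + 2), 112 * (T + 1) * Nk Φ A W J (k + 1) y +
        ∑ k ∈ range (J + 2), 40 * Real.exp (T / 2) * (Real.sqrt (Nk Φ A W J (k + 1) y) *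
          Real.sqrt (Bk Φ A W J k y))) := by
  unfold th1
  rw [sum_comm, sum_comm (s := univ), ← sum_sub_distrib, ← sum_add_distrib, mul_sum]
  exact (abs_sum_le_sum_abs _ _).trans (sum_le_sum fun k hk =>
    th1_scale hA hW hΦ (mem_range.1 hk) ht4 y hT v)

/-- **the law error bound (2a) + (2b)** at two arbitrary potentials -/
theorem th1_two (hA : A.IsSymm) (hW : ∀ x, (W x).im < 0) {J : ℕ} (hΦ : HasFam Φ J)
    (ht4 : ∀ x y, tt Φ x y ≤ 4 ^ J) (y : ι) {T : ℝ} (hT : 0 ≤ T) (v v0 : ℝ) :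
    |th1 Φ A (Real.exp (-T)) J y (rez W y v) - th1 Φ A (Real.exp (-T)) J y (rez W y v0)| ≤
      |v - v0| * (‖Gr A (rez W y v) y y‖ * ‖Gr A (rez W y v0) y y‖) *
        (∑ k ∈ range (J + 2), 112 * (T + 1) * Nk Φ A W J (k + 1) y +
        ∑ k ∈ range (J + 2), 40 * Real.exp (T / 2) * (Real.sqrt (Nk Φ A W J (k + 1) y) *
          Real.sqrt (Bk Φ A (rez W y v0) J k y))) := by
  have h0 := rez_neg hW y v0
  have h := th1_step hA h0 hΦ ht4 y hT v
  rw [rez_rez, norm_dt hA h0, rez_rez, rez_at_re] at h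
  simp only [Nk_rez hA hW] at h
  rw [← mul_assoc] at *
  exact h

/-- `|G_yy|² B_k = Σ_x e_x |G_xy|² rho_k u_xk`: the energy of the rows seen from `y` -/
theorem Bk_eq (hA : A.IsSymm) (hW : ∀ x, (W x).im < 0) (J k : ℕ) (y : ι) :
    (-(W y).im) * (‖Gr A W y y‖ ^ 2 * Bk Φ A W J k y) =
      ∑ x, TT A W x y * Pw Φ (TT A W) J k x x := by
  unfold Bk
  rw [mul_sum, mul_sum]
  refine sum_congr rfl fun x _ => ?_
  rw [rho_ur]
  unfold TT KK
  rw [Gr_eq_gw hA hW y x, norm_mul, mul_pow]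
  ring

theorem hasFam_of {κ : Type*} [Fintype κ] (F : κ → ι → ℝ) (J : ℕ)
    (h : ∀ k, ∃ (m : ℕ) (f : Fin m → ι → ℝ), ∀ x y, ∑ j, (f j x - f j y) ^ 2 =
      Hc J k (∑ a, (F a x - F a y) ^ 2))
    (hΦ : ∀ x y, tt Φ x y = ∑ a, (F a x - F a y) ^ 2) : HasFam Φ J := by
  intro k
  obtain ⟨m, f, hf⟩ := h k
  exact ⟨m, f, fun x b => by rw [hf x b, hΦ]⟩

end P365T2.H775
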