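import Mathlib

/-!
# P365 T2: exact generator identity for one-body functionals, abstract one-variable form.

`t = 1/(v - i e - σ)`, `Γ = Im σ + e > 0`, so `Im t = Γ |t|²`.
A port function is `N = a + 2 Re (β t) + c(e) |t|²`.  With `∂_θ = (1/(2 Γ |t|²)) ∂_v`:
`- e ∂_e N = e (c/Γ - c') |t|² - e ∂_v ∂_θ N`.
For `H = M ψ(N/M)`:
`- e ∂_e H = ψ'(Q) e R_N + (ψ - Q ψ')(Q) e R_M + 2 e Γ|t|² ψ''(Q) M (∂_θ Q)² - e ∂_v ∂_θ H`,
`R = (c/Γ - c') |t|²`.
-/

set_option linter.all false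

namespace P365T2.H775

open Complex MeasureTheory
open scoped ComplexConjugate

/-- the diagonal Green function as a function of the potential `v` and of the absorption `e` -/
noncomputable def tt (σ : ℂ) (v e : ℝ) : ℂ := ((v : ℂ) - e * I - σ)⁻¹

/-- port function -/
noncomputable def Pf (a : ℝ) (β : ℂ) (c : ℝ) (t : ℂ) : ℝ := a + 2 * (β * t).re + c * ‖t‖ ^ 2

/-- its angular derivative -/
noncomputable def Pt (β : ℂ) (c Γ : ℝ) (t : ℂ) : ℝ := -β.re / Γ + 2 * (β * t).im - c / Γ * t.re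

/-- the `v`-derivative of the angular derivative -/
noncomputable def Pv (β : ℂ) (c Γ : ℝ) (t : ℂ) : ℝ := -2 * (β * t ^ 2).im + c / Γ * (t ^ 2).re

variable {σ : ℂ} {v e : ℝ}

theorem den_ne (h : 0 < σ.im + e) : (v : ℂ) - e * I - σ ≠ 0 := by
  intro h0
  have := congrArg Complex.im h0
  simp at this
  linarith

theorem tt_ne (h : 0 < σ.im + e) : tt σ v e ≠ 0 := inv_ne_zero (den_ne h)

theorem sq_norm (t : ℂ) : ‖t‖ ^ 2 = t.re ^ 2 + t.im ^ 2 := by
  rw [← Complex.normSq_eq_norm_sq, Complex.normSq_apply]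
  ring

theorem tt_im (h : 0 < σ.im + e) : (tt σ v e).im = (σ.im + e) * ‖tt σ v e‖ ^ 2 := by
  have hn : Complex.normSq ((v : ℂ) - e * I - σ) ≠ 0 := by
    rw [Ne, Complex.normSq_eq_zero]
    exact den_ne h
  rw [tt, ← Complex.normSq_eq_norm_sq, Complex.normSq_inv, Complex.inv_im]
  have : ((v : ℂ) - e * I - σ).im = -(σ.im + e) := by
    simp
    ring
  rw [this]
  field_simp

theorem hasDerivAt_tt_v (h : 0 < σ.im + e) :
    HasDerivAt (fun v : ℝ => tt σ v e) (-(tt σ v e) ^ 2) v := by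
  have h1 : HasDerivAt (fun v : ℝ => (v : ℂ) - e * I - σ) 1 v :=
    ((Complex.ofRealCLM.hasDerivAt (x := v)).sub_const _).sub_const _
  refine (h1.inv (den_ne h)).congr_deriv ?_
  rw [tt]
  field_simp

theorem hasDerivAt_tt_e (h : 0 < σ.im + e) :
    HasDerivAt (fun e : ℝ => tt σ v e) (I * (tt σ v e) ^ 2) e := by
  have h0 : HasDerivAt (fun e : ℝ => (e : ℂ)) 1 e := Complex.ofRealCLM.hasDerivAt (x := e)
  have h1 : HasDerivAt (fun e : ℝ => (v : ℂ) - e * I - σ) (-(1 * I)) e :=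
    ((h0.mul_const I).const_sub _).sub_const _
  refine (h1.inv (den_ne h)).congr_deriv ?_
  rw [tt]
  field_simp

theorem hasDerivAt_re {f : ℝ → ℂ} {f' : ℂ} {x : ℝ} (h : HasDerivAt f f' x) :
    HasDerivAt (fun x => (f x).re) f'.re x :=
  Complex.reCLM.hasFDerivAt.comp_hasDerivAt x h

theorem hasDerivAt_im {f : ℝ → ℂ} {f' : ℂ} {x : ℝ} (h : HasDerivAt f f' x) :
    HasDerivAt (fun x => (f x).im) f'.im x :=
  Complex.imCLM.hasFDerivAt.comp_hasDerivAt x h

theorem hasDerivAt_nsq {f : ℝ → ℂ} {f' : ℂ} {x : ℝ} (h : HasDerivAt f f' x) :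
    HasDerivAt (fun x => ‖f x‖ ^ 2) (2 * ((f x).re * f'.re + (f x).im * f'.im)) x := by
  have h1 := ((hasDerivAt_re h).pow 2).add ((hasDerivAt_im h).pow 2)
  have e1 : (fun x => ‖f x‖ ^ 2) = fun x => (f x).re ^ 2 + (f x).im ^ 2 :=
    funext fun x => sq_norm _
  rw [e1]
  refine h1.congr_deriv ?_
  push_cast
  ring

/-- **(P1)** `∂_v N = 2 Γ |t|² ∂_θ N` -/
theorem hasDerivAt_Pf_v (h : 0 < σ.im + e) (a : ℝ) (β : ℂ) (c : ℝ) :
    HasDerivAt (fun v : ℝ => Pf a β c (tt σ v e))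
      (2 * ((σ.im + e) * ‖tt σ v e‖ ^ 2) * Pt β c (σ.im + e) (tt σ v e)) v := by
  have ht := hasDerivAt_tt_v (v := v) h
  have h1 := (hasDerivAt_re (ht.const_mul β)).const_mul 2
  have h2 := (hasDerivAt_nsq ht).const_mul c
  refine ((h1.const_add a).add h2).congr_deriv ?_
  have him := tt_im (v := v) h
  have hΓ := h.ne'
  set t := tt σ v e with htd
  set Γ := σ.im + e
  rw [Pt]
  rw [sq_norm] at him ⊢
  set x := t.re
  set y := t.im
  simp only [Complex.mul_re, Complex.mul_im, Complex.neg_re, Complex.neg_im, sq]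
  field_simp
  have him' : y = Γ * (x * x + y * y) := him.trans (by ring)
  linear_combination (2 * β.re * y + 2 * β.im * x) * him'

/-- **(P2)** -/
theorem hasDerivAt_Pt_v (h : 0 < σ.im + e) (β : ℂ) (c Γ : ℝ) :
    HasDerivAt (fun v : ℝ => Pt β c Γ (tt σ v e)) (Pv β c Γ (tt σ v e)) v := by
  have ht := hasDerivAt_tt_v (v := v) h
  have h1 := (hasDerivAt_im (ht.const_mul β)).const_mul 2
  have h2 := (hasDerivAt_re ht).const_mul (c / Γ)
  refine ((h1.const_add (-β.re / Γ)).sub h2).congr_deriv ?_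
  rw [Pv]
  simp only [Complex.mul_re, Complex.mul_im, Complex.neg_re, Complex.neg_im]
  ring

/-- **(P3)** `- e ∂_e N = e (c/Γ - c') |t|² - e ∂_v ∂_θ N` -/
theorem hasDerivAt_Pf_e (h : 0 < σ.im + e) (a : ℝ) (β : ℂ) {c : ℝ → ℝ} {c' : ℝ}
    (hc : HasDerivAt c c' e) :
    HasDerivAt (fun e : ℝ => Pf a β (c e) (tt σ v e))
      (-((c e / (σ.im + e) - c') * ‖tt σ v e‖ ^ 2 - Pv β (c e) (σ.im + e) (tt σ v e))) e := by
  have ht := hasDerivAt_tt_e (v := v) h
  have h1 := (hasDerivAt_re (ht.const_mul β)).const_mul 2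
  have h2 := hc.mul (hasDerivAt_nsq ht)
  refine ((h1.const_add a).add h2).congr_deriv ?_
  have him := tt_im (v := v) h
  have hΓ := h.ne'
  set t := tt σ v e with htd
  set Γ := σ.im + e
  rw [Pv]
  rw [sq_norm] at him ⊢
  set x := t.re
  set y := t.im
  simp only [Complex.mul_re, Complex.mul_im, Complex.neg_re, Complex.neg_im, sq, Complex.I_re,
    Complex.I_im]
  field_simp
  have him' : y = Γ * (x * x + y * y) := him.trans (by ring)
  linear_combination (2 * c e * y) * him'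

end P365T2.H775
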