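import Vale.Agent.P365.T2.H417.GenInst

/-!
# P365 T2: local law error of the one-body entropy, two potentials at one site (helper775)
-/

set_option linter.all false

namespace P365T2.H775

open Finset Complex P365L P365T1
open scoped ComplexConjugate
open P365T2.H37 (wk rho)
open P365T2.H844
open Vale.Agent.P365.T2.H417
open Vale.Agent.P365.T2.H789

variable {ι : Type*} [Fintype ι] [DecidableEq ι]
variable {A : Matrix ι ι ℝ} {W : ι → ℂ}

/-- `Σ_b e_b w_b conj(G_xb) c_b`, `c_b = G_by/G_yy` -/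
noncomputable def RR (A : Matrix ι ι ℝ) (W : ι → ℂ) (y : ι) (w : ι → ℝ) (x : ι) : ℂ :=
  ∑ b, ((-(W b).im * w b : ℝ) : ℂ) * (conj (Gr A W x b) * gw A W y b)

/-- `Σ_b e_b w_b |c_b|²` -/
noncomputable def Wc (A : Matrix ι ι ℝ) (W : ι → ℂ) (y : ι) (w : ι → ℝ) : ℝ :=
  ∑ b, (-(W b).im * w b) * ‖gw A W y b‖ ^ 2

theorem rez_neg (hW : ∀ x, (W x).im < 0) (y : ι) (v : ℝ) : ∀ x, (rez W y v x).im < 0 :=
  rez_mem hW y v

theorem rez_im (W : ι → ℂ) (y : ι) (v : ℝ) (x : ι) : (rez W y v x).im = (W x).im := by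
  by_cases h : x = y
  · subst h; exact rez_at_im W x v
  · rw [rez_of_ne W h]

theorem gw_rez (hA : A.IsSymm) (hW : ∀ x, (W x).im < 0) (y : ι) (v : ℝ) (a : ι) :
    gw A (rez W y v) y a = gw A W y a := by
  have h1 := rez_neg hW y v y
  rw [rez_at] at h1
  exact gw_upd hA hW h1 a

theorem Sf_rez (hA : A.IsSymm) (hW : ∀ x, (W x).im < 0) (y : ι) (v : ℝ) :
    Sf A (rez W y v) y = Sf A W y := by
  unfold Sf
  exact sum_congr rfl fun a _ => by rw [rez_im, gw_rez hA hW]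

theorem Wc_rez (hA : A.IsSymm) (hW : ∀ x, (W x).im < 0) (y : ι) (v : ℝ) (w : ι → ℝ) :
    Wc A (rez W y v) y w = Wc A W y w := by
  unfold Wc
  exact sum_congr rfl fun a _ => by rw [rez_im, gw_rez hA hW]

/-- the difference of the diagonal entries -/
noncomputable def dt (A : Matrix ι ι ℝ) (W : ι → ℂ) (y : ι) (v : ℝ) : ℂ :=
  Gr A (rez W y v) y y - Gr A W y y

theorem Gr_rez (hA : A.IsSymm) (hW : ∀ x, (W x).im < 0) (y : ι) (v : ℝ) (a b : ι) :
    Gr A (rez W y v) a b = Gr A W a b + dt A W y v * (gw A W y a * gw A W y b) := by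
  have h1 := rez_neg hW y v y
  rw [rez_at] at h1
  have h2 : Gi A (rez W y v) y a b = Gi A W y a b := Gi_upd hA hW h1 a b
  have h3 := Gr_eq_Gi hA (rez_neg hW y v) y a b
  have h4 := Gr_eq_Gi hA hW y a b
  rw [h3, h2, gw_rez hA hW, gw_rez hA hW, h4, dt]
  ring

theorem norm_dt (hA : A.IsSymm) (hW : ∀ x, (W x).im < 0) (y : ι) (v : ℝ) :
    ‖dt A W y v‖ = |v - (W y).re| * ‖Gr A (rez W y v) y y‖ * ‖Gr A W y y‖ := by
  have h1 := rez_neg hW y v y
  rw [rez_at] at h1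
  have h2 : Gr A (rez W y v) y y = (((v : ℂ) + ((W y).im : ℂ) * I) - sg A W y)⁻¹ :=
    Gr_zz_upd hA hW h1
  have h3 := Gr_self_eq hA hW y
  have n2 := Gr_self_ne_zero hA (rez_neg hW y v) y
  have n3 := Gr_self_ne_zero hA hW y
  have m2 : ((v : ℂ) + ((W y).im : ℂ) * I) - sg A W y ≠ 0 := by
    intro h; rw [h2, h, inv_zero] at n2; exact n2 rfl
  have m3 : W y - sg A W y ≠ 0 := by
    intro h; rw [h3, h, inv_zero] at n3; exact n3 rfl
  have e1 : dt A W y v = -((v : ℂ) - ((W y).re : ℂ)) * Gr A (rez W y v) y y * Gr A W y y := by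
    rw [dt, h2, h3]
    have e2 : W y = ((W y).re : ℂ) + ((W y).im : ℂ) * I := (Complex.re_add_im (W y)).symm
    field_simp
    linear_combination e2
  rw [e1, norm_mul, norm_mul, norm_neg, ← Complex.ofReal_sub, Complex.norm_real, Real.norm_eq_abs]

/-- `t / conj t = 1 + 2 i Γ t` -/
theorem ta_eq (hA : A.IsSymm) (hW : ∀ x, (W x).im < 0) (y : ι) :
    Gr A W y y / conj (Gr A W y y) = 1 + 2 * I * (Sf A W y : ℂ) * Gr A W y y := by
  have h0 := Gr_self_ne_zero hA hW y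
  have h0' : conj (Gr A W y y) ≠ 0 := (map_ne_zero _).2 h0
  have h1 : Gr A W y y - conj (Gr A W y y) = 2 * I * ((mm A W y : ℝ) : ℂ) := by
    rw [Complex.sub_conj, mm]; push_cast; ring
  rw [mm_eq_Sf hA hW] at h1
  have h2 : ((‖Gr A W y y‖ ^ 2 : ℝ) : ℂ) = Gr A W y y * conj (Gr A W y y) := by
    rw [Complex.mul_conj, Complex.normSq_eq_norm_sq]
  rw [div_eq_iff h0']
  rw [Complex.ofReal_mul, h2] at h1
  linear_combination h1

theorem norm_ta (hA : A.IsSymm) (hW : ∀ x, (W x).im < 0) (y : ι) :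
    ‖Gr A W y y / conj (Gr A W y y)‖ = 1 := by
  have h0 := Gr_self_ne_zero hA hW y
  rw [norm_div, Complex.norm_conj, div_self (norm_ne_zero_iff.2 h0)]

/-- the angular derivative of a row energy -/
theorem sum_tT (hA : A.IsSymm) (hW : ∀ x, (W x).im < 0) (y x : ι) (w : ι → ℝ) :
    ∑ b, w b * tT A W y x b = -((-(W x).im) / Sf A W y *
      (Gr A W y y / conj (Gr A W y y) * (gw A W y x * RR A W y w x)).re) := by
  have h0 := Gr_self_ne_zero hA hW y
  have h0' : conj (Gr A W y y) ≠ 0 := (map_ne_zero _).2 h0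
  have hS := (Sf_pos hA hW y).ne'
  have hn : ‖Gr A W y y‖ ^ 2 ≠ 0 := pow_ne_zero 2 (norm_ne_zero_iff.2 h0)
  have h2 : ((‖Gr A W y y‖ ^ 2 : ℝ) : ℂ) = Gr A W y y * conj (Gr A W y y) := by
    rw [Complex.mul_conj, Complex.normSq_eq_norm_sq]
  have e1 : Gr A W y y / conj (Gr A W y y) * (gw A W y x * RR A W y w x) =
      (((‖Gr A W y y‖ ^ 2)⁻¹ : ℝ) : ℂ) *
        ∑ b, ((-(W b).im * w b : ℝ) : ℂ) * (conj (Gr A W x b) * (Gr A W x y * Gr A W y b)) := by
    rw [Complex.ofReal_inv, h2, RR, Finset.mul_sum, Finset.mul_sum, Finset.mul_sum]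
    refine sum_congr rfl fun b _ => ?_
    rw [Gr_eq_gw hA hW y x, Gr_eq_gw' hA hW y b]
    field_simp
  rw [e1, Complex.re_ofReal_mul, Complex.re_sum, Finset.mul_sum, Finset.mul_sum,
    ← Finset.sum_neg_distrib]
  refine sum_congr rfl fun b _ => ?_
  rw [Complex.re_ofReal_mul]
  unfold tT
  rw [mm_eq_Sf hA hW]
  field_simp

theorem RR_rez (hA : A.IsSymm) (hW : ∀ x, (W x).im < 0) (y x : ι) (v : ℝ) (w : ι → ℝ) :
    RR A (rez W y v) y w x = RR A W y w x +
      conj (dt A W y v) * conj (gw A W y x) * ((Wc A W y w : ℝ) : ℂ) := by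
  unfold RR Wc
  rw [Complex.ofReal_sum, Finset.mul_sum, ← Finset.sum_add_distrib]
  refine sum_congr rfl fun b _ => ?_
  rw [rez_im, gw_rez hA hW, Gr_rez hA hW, map_add, map_mul, map_mul]
  have h2 : ((‖gw A W y b‖ ^ 2 : ℝ) : ℂ) = gw A W y b * conj (gw A W y b) := by
    rw [Complex.mul_conj, Complex.normSq_eq_norm_sq]
  rw [Complex.ofReal_mul _ (‖gw A W y b‖ ^ 2), h2]
  ring

/-- frozen multiplier, difference of two potentials -/
theorem frozen_diff (hA : A.IsSymm) (hW : ∀ x, (W x).im < 0) (y : ι) (v : ℝ)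
    (w : ι → ι → ℝ) (hw : ∀ x b, 0 ≤ w x b) (m : ι → ℝ) :
    |∑ x, m x * ∑ b, w x b * tT A (rez W y v) y x b - ∑ x, m x * ∑ b, w x b * tT A W y x b| ≤
      ‖dt A W y v‖ * (2 * ‖∑ x, ((-(W x).im * m x : ℝ) : ℂ) * (gw A W y x * RR A W y (w x) x)‖ +
        (∑ x, -(W x).im * |m x| * ‖gw A W y x‖ ^ 2 * Wc A W y (w x)) / Sf A W y) := by
  have hW' := rez_neg hW y v
  have hS := Sf_pos hA hW y
  set S0 : ℂ := ∑ x, ((-(W x).im * m x : ℝ) : ℂ) * (gw A W y x * RR A W y (w x) x) with hS0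
  set S1 : ℝ := ∑ x, -(W x).im * |m x| * ‖gw A W y x‖ ^ 2 * Wc A W y (w x) with hS1
  obtain ⟨t, ht⟩ : ∃ t, t = Gr A W y y := ⟨_, rfl⟩
  obtain ⟨t', ht'⟩ : ∃ t', t' = Gr A (rez W y v) y y := ⟨_, rfl⟩
  set d := dt A W y v with hd
  have hdt : d = t' - t := by rw [ht, ht']; rfl
  have e0 : ∑ x, m x * ∑ b, w x b * tT A W y x b = -(1 / Sf A W y) * (t / conj t * S0).re := by
    rw [hS0, Finset.mul_sum, Complex.re_sum, Finset.mul_sum]
    refine sum_congr rfl fun x _ => ?_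
    rw [sum_tT hA hW, ← ht]
    have : t / conj t * (((-(W x).im * m x : ℝ) : ℂ) * (gw A W y x * RR A W y (w x) x)) =
        ((-(W x).im * m x : ℝ) : ℂ) * (t / conj t * (gw A W y x * RR A W y (w x) x)) := by ring
    rw [this, Complex.re_ofReal_mul]
    field_simp
  have e1 : ∑ x, m x * ∑ b, w x b * tT A (rez W y v) y x b = -(1 / Sf A W y) *
      (t' / conj t' * ∑ x, ((-(W x).im * m x : ℝ) : ℂ) *
        (gw A W y x * RR A (rez W y v) y (w x) x)).re := by
    rw [Finset.mul_sum, Complex.re_sum, Finset.mul_sum]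
    refine sum_congr rfl fun x _ => ?_
    rw [sum_tT hA hW', Sf_rez hA hW, gw_rez hA hW, rez_im, ← ht']
    have : t' / conj t' * (((-(W x).im * m x : ℝ) : ℂ) *
        (gw A W y x * RR A (rez W y v) y (w x) x)) =
        ((-(W x).im * m x : ℝ) : ℂ) * (t' / conj t' *
          (gw A W y x * RR A (rez W y v) y (w x) x)) := by ring
    rw [this, Complex.re_ofReal_mul]
    field_simp
  set D : ℂ := ∑ x, ((-(W x).im * m x : ℝ) : ℂ) * (gw A W y x *
    (conj d * conj (gw A W y x) * ((Wc A W y (w x) : ℝ) : ℂ))) with hD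
  have e2 : ∑ x, ((-(W x).im * m x : ℝ) : ℂ) * (gw A W y x * RR A (rez W y v) y (w x) x) =
      S0 + D := by
    rw [hS0, hD, ← Finset.sum_add_distrib]
    refine sum_congr rfl fun x _ => ?_
    rw [RR_rez hA hW]
    ring
  have hDn : ‖D‖ ≤ ‖d‖ * S1 := by
    rw [hD, hS1, Finset.mul_sum]
    refine (norm_sum_le _ _).trans (sum_le_sum fun x _ => ?_)
    have hx : 0 < -(W x).im := by linarith [hW x]
    have hWc : 0 ≤ Wc A W y (w x) := sum_nonneg fun b _ =>
      mul_nonneg (mul_nonneg (by linarith [hW b]) (hw x b)) (sq_nonneg _)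
    rw [norm_mul, norm_mul, norm_mul, norm_mul, Complex.norm_conj, Complex.norm_conj,
      Complex.norm_real, Complex.norm_real, Real.norm_eq_abs, Real.norm_eq_abs, abs_mul,
      abs_of_pos hx, abs_of_nonneg hWc]
    exact le_of_eq (by ring)
  have hta : t' / conj t' - t / conj t = 2 * I * (Sf A W y : ℂ) * d := by
    have h1 := ta_eq hA hW y
    have h2 := ta_eq hA hW' y
    rw [Sf_rez hA hW, ← ht'] at h2
    rw [← ht] at h1
    rw [h2, h1, hdt]
    ring
  have hnta : ‖t' / conj t'‖ = 1 := by rw [ht']; exact norm_ta hA hW' y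
  have e3 : t' / conj t' * (S0 + D) - t / conj t * S0 =
      2 * I * (Sf A W y : ℂ) * d * S0 + t' / conj t' * D := by
    rw [← hta]; ring
  have e4 : ‖t' / conj t' * (S0 + D) - t / conj t * S0‖ ≤
      2 * Sf A W y * ‖d‖ * ‖S0‖ + ‖d‖ * S1 := by
    rw [e3]
    refine (norm_add_le _ _).trans ?_
    rw [norm_mul, norm_mul, norm_mul, norm_mul, norm_mul, hnta, Complex.norm_I, Complex.norm_real,
      Real.norm_eq_abs, abs_of_pos hS, Complex.norm_ofNat, one_mul, mul_one]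
    linarith
  rw [e0, e1, e2]
  have e5 : -(1 / Sf A W y) * (t' / conj t' * (S0 + D)).re -
      -(1 / Sf A W y) * (t / conj t * S0).re =
      -(1 / Sf A W y) * (t' / conj t' * (S0 + D) - t / conj t * S0).re := by
    rw [Complex.sub_re]; ring
  rw [e5, abs_mul, abs_neg, abs_of_pos (by positivity : 0 < 1 / Sf A W y)]
  calc 1 / Sf A W y * |(t' / conj t' * (S0 + D) - t / conj t * S0).re|
      ≤ 1 / Sf A W y * (2 * Sf A W y * ‖d‖ * ‖S0‖ + ‖d‖ * S1) :=
        mul_le_mul_of_nonneg_left ((Complex.abs_re_le_norm _).trans e4) (by positivity)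
    _ = _ := by field_simp

/-- Cauchy-Schwarz for one row -/
theorem sum_tT_sq_le (hA : A.IsSymm) (hW : ∀ x, (W x).im < 0) (y x : ι) (w : ι → ℝ)
    (hw : ∀ b, 0 ≤ w b) :
    Sf A W y * |∑ b, w b * tT A W y x b| ≤
      Real.sqrt (-(W x).im * ‖gw A W y x‖ ^ 2 * Wc A W y w) *
        Real.sqrt (∑ b, w b * TT A W x b) := by
  have hS := Sf_pos hA hW y
  have hx : 0 < -(W x).im := by linarith [hW x]
  have hWc : 0 ≤ Wc A W y w := sum_nonneg fun b _ =>
      mul_nonneg (mul_nonneg (by linarith [hW b]) (hw b)) (sq_nonneg _)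
  have h1 : Sf A W y * |∑ b, w b * tT A W y x b| ≤ -(W x).im * (‖gw A W y x‖ * ‖RR A W y w x‖) := by
    rw [sum_tT hA hW, abs_neg, abs_mul, abs_of_pos (by positivity : 0 < -(W x).im / Sf A W y)]
    have h2 := Complex.abs_re_le_norm
      (Gr A W y y / conj (Gr A W y y) * (gw A W y x * RR A W y w x))
    rw [norm_mul, norm_ta hA hW, one_mul, norm_mul] at h2
    calc _ = -(W x).im *
          |(Gr A W y y / conj (Gr A W y y) * (gw A W y x * RR A W y w x)).re| := by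
          field_simp
      _ ≤ _ := mul_le_mul_of_nonneg_left h2 hx.le
  refine h1.trans ?_
  have h3 : ‖RR A W y w x‖ ^ 2 ≤ (∑ b, -(W b).im * w b * KK A W x b) * Wc A W y w := by
    have h4 : ‖RR A W y w x‖ ≤ ∑ b, (-(W b).im * w b) * (‖Gr A W x b‖ * ‖gw A W y b‖) := by
      unfold RR
      refine (norm_sum_le _ _).trans (le_of_eq (sum_congr rfl fun b _ => ?_))
      rw [norm_mul, norm_mul, Complex.norm_conj, Complex.norm_real, Real.norm_eq_abs,
        abs_of_nonneg (mul_nonneg (by linarith [hW b]) (hw b))]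
    refine (pow_le_pow_left₀ (norm_nonneg _) h4 2).trans ?_
    unfold Wc
    refine Finset.sum_sq_le_sum_mul_sum_of_sq_eq_mul Finset.univ
      (fun b _ => mul_nonneg (mul_nonneg (by linarith [hW b]) (hw b)) (KK_nonneg x b))
      (fun b _ => mul_nonneg (mul_nonneg (by linarith [hW b]) (hw b)) (sq_nonneg _))
      fun b _ => ?_
    unfold KK
    ring
  have h5 : ∑ b, w b * TT A W x b = -(W x).im * ∑ b, -(W b).im * w b * KK A W x b := by
    rw [Finset.mul_sum]
    refine sum_congr rfl fun b _ => ?_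
    unfold TT
    ring
  have h6 : 0 ≤ ∑ b, -(W b).im * w b * KK A W x b := sum_nonneg fun b _ =>
    mul_nonneg (mul_nonneg (by linarith [hW b]) (hw b)) (KK_nonneg x b)
  rw [← Real.sqrt_mul (by positivity)]
  refine Real.le_sqrt_of_sq_le ?_
  rw [h5]
  have h7 : (-(W x).im * (‖gw A W y x‖ * ‖RR A W y w x‖)) ^ 2 =
      (-(W x).im) ^ 2 * ‖gw A W y x‖ ^ 2 * ‖RR A W y w x‖ ^ 2 := by ring
  rw [h7]
  calc _ ≤ (-(W x).im) ^ 2 * ‖gw A W y x‖ ^ 2 *
        ((∑ b, -(W b).im * w b * KK A W x b) * Wc A W y w) :=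
        mul_le_mul_of_nonneg_left h3 (by positivity)
    _ = _ := by ring

/-- the square roots of the row energies at two potentials -/
theorem sqrt_row_diff (hA : A.IsSymm) (hW : ∀ x, (W x).im < 0) (y x : ι) (v : ℝ) (w : ι → ℝ)
    (hw : ∀ b, 0 ≤ w b) :
    |Real.sqrt (∑ b, w b * TT A (rez W y v) x b) - Real.sqrt (∑ b, w b * TT A W x b)| ≤
      ‖dt A W y v‖ * Real.sqrt (-(W x).im * ‖gw A W y x‖ ^ 2 * Wc A W y w) := by
  have hx : 0 < -(W x).im := by linarith [hW x]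
  have hq : ∀ b, 0 ≤ -(W x).im * -(W b).im * w b := fun b =>
    mul_nonneg (mul_nonneg hx.le (by linarith [hW b])) (hw b)
  set U : EuclideanSpace ℂ ι := WithLp.toLp 2 fun b =>
    ((Real.sqrt (-(W x).im * -(W b).im * w b) : ℝ) : ℂ) * Gr A (rez W y v) x b with hU
  set V : EuclideanSpace ℂ ι := WithLp.toLp 2 fun b =>
    ((Real.sqrt (-(W x).im * -(W b).im * w b) : ℝ) : ℂ) * Gr A W x b with hV
  have e1 : ‖U‖ = Real.sqrt (∑ b, w b * TT A (rez W y v) x b) := by
    rw [EuclideanSpace.norm_eq]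
    congr 1
    refine sum_congr rfl fun b _ => ?_
    rw [hU, norm_mul, Complex.norm_real, Real.norm_eq_abs, mul_pow, sq_abs, Real.sq_sqrt (hq b)]
    unfold TT KK
    rw [rez_im, rez_im]
    ring
  have e2 : ‖V‖ = Real.sqrt (∑ b, w b * TT A W x b) := by
    rw [EuclideanSpace.norm_eq]
    congr 1
    refine sum_congr rfl fun b _ => ?_
    rw [hV, norm_mul, Complex.norm_real, Real.norm_eq_abs, mul_pow, sq_abs, Real.sq_sqrt (hq b)]
    unfold TT KK
    ring
  have e3 : ‖U - V‖ = ‖dt A W y v‖ * Real.sqrt (-(W x).im * ‖gw A W y x‖ ^ 2 * Wc A W y w) := by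
    rw [EuclideanSpace.norm_eq, ← Real.sqrt_sq (norm_nonneg (dt A W y v)), ← Real.sqrt_mul
      (sq_nonneg _)]
    congr 1
    unfold Wc
    rw [Finset.mul_sum, Finset.mul_sum]
    refine sum_congr rfl fun b _ => ?_
    have e4 : (U - V) b = ((Real.sqrt (-(W x).im * -(W b).im * w b) : ℝ) : ℂ) *
        (dt A W y v * (gw A W y x * gw A W y b)) := by
      rw [hU, hV]
      simp only [PiLp.sub_apply]
      rw [Gr_rez hA hW]
      ring
    rw [e4, norm_mul, norm_mul, norm_mul, Complex.norm_real, Real.norm_eq_abs, mul_pow, sq_abs,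
      Real.sq_sqrt (hq b)]
    ring
  rw [← e1, ← e2, ← e3]
  exact abs_norm_sub_norm_le U V

end P365T2.H775
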